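import Vale.Agent.P262.M2.Sigma3
import Vale.Agent.P262.H716.Forms2

open scoped ENNReal

namespace Vale.Agent.Results.P262.SigmaOrderSqrtD

open Vale.Agent.P262 Vale.Agent.P262.H691 Vale.Agent.P262.H865

/-- Both constants of the problem have the order `√d`: `√d ≤ σ(d) ≤ C √d` and
`c √d ≤ S_2(d) ≤ C √d`, with absolute constants `c, C > 0`; and the corresponding orders for
`ℓ_p^d` (for a given number of vectors if `1 ≤ p ≤ 2`), for all normed spaces at given distance from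
a subspace of `ℓ_2^d`, and for matrices of vectors. -/
theorem result : ∃ c C : ℝ, 0 < c ∧ 0 < C ∧
    -- (1) the two constants of the problem
    (∀ d : ℕ, 1 ≤ d →
      (ENNReal.ofReal (Real.sqrt d) ≤ signedConst d ∧
        signedConst d ≤ ENNReal.ofReal (C * Real.sqrt d)) ∧
      (ENNReal.ofReal (c * Real.sqrt d) ≤ steinitzConst d ∧
        steinitzConst d ≤ ENNReal.ofReal (C * Real.sqrt d))) ∧
    -- (2) `ℓ_p^d`, `1 ≤ p ≤ 2`, for a given number of vectors: both constants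
    (∀ (p : ℝ≥0∞) [Fact (1 ≤ p)], p ≤ 2 → ∀ d N : ℕ, 1 ≤ d →
      (ENNReal.ofReal (((min d N : ℕ) : ℝ) ^ (1 / p.toReal)) ≤
        signedN (PiLp p (fun _ : Fin d => ℝ)) N ∧
      signedN (PiLp p (fun _ : Fin d => ℝ)) N ≤
        ENNReal.ofReal (C * ((min d N : ℕ) : ℝ) ^ (1 / p.toReal))) ∧
      (2 ≤ N → ENNReal.ofReal (c * ((min d N : ℕ) : ℝ) ^ (1 / p.toReal)) ≤
        steinitzN (PiLp p (fun _ : Fin d => ℝ)) N) ∧
      steinitzN (PiLp p (fun _ : Fin d => ℝ)) N ≤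
        ENNReal.ofReal (C * ((min d N : ℕ) : ℝ) ^ (1 / p.toReal))) ∧
    -- (3) `ℓ_p^d`, `2 ≤ p ≤ ∞` (for `p = ∞` the exponent `1 - 1 / p.toReal` is `1`)
    (∀ (p : ℝ≥0∞) [Fact (1 ≤ p)], 2 ≤ p → ∀ d : ℕ, 1 ≤ d →
      ENNReal.ofReal (c * Real.sqrt d) ≤ signed (PiLp p (fun _ : Fin d => ℝ)) ∧
      signed (PiLp p (fun _ : Fin d => ℝ)) ≤
        ENNReal.ofReal (C * (d : ℝ) ^ (1 - 1 / p.toReal))) ∧
    -- (4) every normed space at distance at most `D` from a subspace of `ℓ_2^d`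
    (∀ (d : ℕ), 1 ≤ d → ∀ (E : Type) [NormedAddCommGroup E] [NormedSpace ℝ E]
        (T : E →ₗ[ℝ] EuclideanSpace ℝ (Fin d)) (D : ℝ), 0 ≤ D →
        (∀ x, ‖T x‖ ≤ ‖x‖ ∧ ‖x‖ ≤ D * ‖T x‖) →
      signed E ≤ ENNReal.ofReal (C * D * Real.sqrt d)) ∧
    -- (5) matrices of vectors in `ℓ_p^d`, `1 ≤ p ≤ 2`
    (∀ (p : ℝ≥0∞) [Fact (1 ≤ p)], p ≤ 2 → ∀ d m n : ℕ, 1 ≤ d → 1 ≤ m → 2 ≤ n →
      ENNReal.ofReal (c * ((min d (m * n) : ℕ) : ℝ) ^ (1 / p.toReal)) ≤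
        matrixSteinitz (PiLp p (fun _ : Fin d => ℝ)) m n ∧
      matrixSteinitz (PiLp p (fun _ : Fin d => ℝ)) m n ≤
        ENNReal.ofReal (C * ((min d (m * n) : ℕ) : ℝ) ^ (1 / p.toReal))) :=
  H716.forms_one M2.sigma_sqrt

end Vale.Agent.Results.P262.SigmaOrderSqrtD
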